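import Vale.Agent.P095.Finite.Copies

/-!
Reindexed copies compatible with an action of a countable group.
-/

noncomputable section

open Filter Topology
open scoped BoundedContinuousFunction

namespace Vale.Agent.P095.Amenable

open Vale.Agent.P101 Vale.Agent.P095.Finite

universe u v

variable {G : Type v} [Group G] [Countable G] {A : Type u} [CStarAlgebra A]
  [TopologicalSpace.SeparableSpace A] {ω : Ultrafilter ℕ} (α : G → A ≃⋆ₐ[ℂ] A)
  (hα : ∀ g h x, α (g * h) x = α g (α h x))

include hα in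
/-- An identity witnessing fullness of commutators gives equivariant commuting copies of an
algebra with full commutators; fixed elements give fixed copies. -/
theorem exists_copies_countable (hω : (ω : Filter ℕ) ≤ cofinite) {n : ℕ}
    (p a b q : Fin n → CQ ω A) (hsum : ∑ i, p i * (a i * b i - b i * a i) * q i = 1) :
    ∃ (B : Type u) (_ : CStarAlgebra B) (γ : G → B → B) (c : Copies B (CQ ω A) ℕ),
      (∀ k g x, c.hom k (γ g x) = actCQ ω α hα g (c.hom k x)) ∧
      Full {x : B | ∃ a b, a * b - b * a = x} ∧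
      ((∀ i g, actCQ ω α hα g (p i) = p i ∧ actCQ ω α hα g (a i) = a i ∧
          actCQ ω α hα g (b i) = b i ∧ actCQ ω α hα g (q i) = q i) →
        ∀ k x g, actCQ ω α hα g (c.hom k x) = c.hom k x) := by
  classical
  let l : CQ ω A → ↥(centralAlg ω A) := Function.surjInv (proj_surjective ω)
  have hl : ∀ x, proj ω (l x) = x := Function.surjInv_eq (proj_surjective ω)
  let T : Set (CQ ω A) := Set.range p ∪ Set.range a ∪ Set.range b ∪ Set.range q
  have hT : T.Finite := ((Set.finite_range p).union (Set.finite_range a)).union (Set.finite_range b) |>.union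
    (Set.finite_range q)
  let L : Set ↥(centralAlg ω A) := ⋃ g : G, centralAct ω (α g) '' (l '' T)
  have hL : L.Countable := Set.countable_iUnion fun g => ((hT.image l).image _).countable
  have hTL : ∀ x ∈ T, l x ∈ L := fun x hx => Set.mem_iUnion.2 ⟨1, l x, ⟨x, hx, rfl⟩, by
    refine Subtype.ext ?_
    ext m
    exact act_one α hα _⟩
  have hLinv : ∀ g, ∀ y ∈ L, centralAct ω (α g) y ∈ L := by
    intro g y hy
    obtain ⟨h, x, hx, rfl⟩ := Set.mem_iUnion.1 hy
    refine Set.mem_iUnion.2 ⟨g * h, x, hx, ?_⟩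
    refine Subtype.ext ?_
    ext m
    exact hα g h _
  let E : StarSubalgebra ℂ ↥(centralAlg ω A) := StarAlgebra.adjoin ℂ L
  have hEinv : ∀ g, ∀ x ∈ E, centralAct ω (α g) x ∈ E := fun g =>
    show E ≤ StarSubalgebra.comap (centralAct ω (α g)) E from
      StarAlgebra.adjoin_le fun y hy => StarAlgebra.subset_adjoin ℂ L (hLinv g y hy)
  have hsep : TopologicalSpace.IsSeparable (E : Set ↥(centralAlg ω A)) := by
    have hfin : (L ∪ star L).Countable := hL.union (Set.image_star (s := L) ▸ hL.image star)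
    have hc : (Submonoid.closure (L ∪ star L) : Set ↥(centralAlg ω A)).Countable := by
      have : Countable (L ∪ star L : Set ↥(centralAlg ω A)) := hfin.to_subtype
      rw [Submonoid.closure_eq_mrange]
      exact Set.countable_range _
    have := hc.isSeparable.span (R := ℂ)
    rwa [← StarAlgebra.adjoin_eq_span] at this
  have : TopologicalSpace.SeparableSpace E := hsep.separableSpace
  obtain ⟨d, hd⟩ := TopologicalSpace.exists_dense_seq E
  obtain ⟨m, hm1, hm2, hm3⟩ := exists_index hω fun i => (d i : ↥(centralAlg ω A))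
  let v : E → ℕ →ᵇ A := fun x => ((x : ↥(centralAlg ω A)) : ℕ →ᵇ A)
  have hvc : Continuous v := continuous_subtype_val.comp continuous_subtype_val
  have hr : ∀ k (x : E), IsCentral ω (reidx (m k) (v x)) := fun k x => by
    have hcl : IsClosed {x : E | reidx (m k) (v x) ∈ centralAlg ω A} :=
      (isClosed_centralAlg ω).preimage ((continuous_reidx _).comp hvc)
    exact mem_centralAlg ω |>.1 (hd.induction_on x hcl fun i => hm1 k i)
  let Ψ : ℕ → E →⋆ₐ[ℂ] CQ ω A := fun k => (proj ω).comp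
    (StarAlgHom.codRestrict ((reidxHom (m k)).comp ((centralAlg ω A).subtype.comp E.subtype))
      (centralAlg ω A) fun x => hr k x)
  let π : E →⋆ₐ[ℂ] CQ ω A := (proj ω).comp E.subtype
  have hΨn : ∀ k x, ‖Ψ k x‖ = ‖π x‖ := fun k x => by
    refine hd.induction_on x (isClosed_eq ?_ ?_) fun i => hm2 k i
    · exact continuous_nrm.comp ((continuous_reidx _).comp hvc)
    · exact continuous_nrm.comp hvc
  have hΨle : ∀ k (x : E), ‖Ψ k x‖ ≤ ‖x‖ := fun k x => by rw [hΨn]; exact nrm_le _
  have hΨc : ∀ k, Continuous (Ψ k) := fun k =>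
    AddMonoidHomClass.continuous_of_bound (Ψ k) 1 fun x => by rw [one_mul]; exact hΨle k x
  have hΨcomm : ∀ j k, j ≠ k → ∀ x y, Commute (Ψ j x) (Ψ k y) := by
    have base : ∀ j k, j < k → ∀ x y, Commute (Ψ k x) (Ψ j y) := fun j k hjk x y => by
      refine (hd.prodMap hd).induction_on (p := fun r : E × E => Commute (Ψ k r.1) (Ψ j r.2)) (x, y)
        ?_ fun r => ?_
      · exact isClosed_eq (((hΨc k).comp continuous_fst).mul ((hΨc j).comp continuous_snd))
          (((hΨc j).comp continuous_snd).mul ((hΨc k).comp continuous_fst))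
      · show _ * _ = _ * _
        simp only [Prod.map]
        rw [← sub_eq_zero, ← norm_eq_zero]
        exact (isNull_iff _).1 (hm3 j k hjk r.1 r.2)
    intro j k hjk x y
    rcases lt_or_gt_of_ne hjk with h | h
    · exact (base j k h y x).symm
    · exact base k j h x y
  let e : G → E →⋆ₐ[ℂ] E := fun g =>
    StarAlgHom.codRestrict ((centralAct ω (α g)).comp E.subtype) E fun x => hEinv g x x.2
  have hΨe : ∀ k g (x : E), Ψ k (e g x) = actCQ ω α hα g (Ψ k x) := by
    intro k g x
    show proj ω _ = actHom ω (α g) (proj ω _)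
    rw [actHom_proj]
    congr 1
  let Θ : E →⋆ₐ[ℂ] (ℕ →ᵇ CQ ω A) := joint Ψ hΨle
  let Bs : StarSubalgebra ℂ (ℕ →ᵇ CQ ω A) := Θ.range.topologicalClosure
  have : IsClosed (Bs : Set (ℕ →ᵇ CQ ω A)) := StarSubalgebra.isClosed_topologicalClosure _
  have hmemB : ∀ x : E, Θ x ∈ Bs := fun x =>
    StarSubalgebra.le_topologicalClosure _ ((mem_range_iff Θ).2 ⟨x, rfl⟩)
  have hBind : ∀ (S : Set (ℕ →ᵇ CQ ω A)), IsClosed S → (∀ x : E, Θ x ∈ S) → ∀ y : Bs, (y : ℕ →ᵇ CQ ω A) ∈ S :=
    fun S hS h y => closure_minimal (by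
      intro z hz
      obtain ⟨x, rfl⟩ := (mem_range_iff Θ).1 hz
      exact h x) hS y.2
  have hev : ∀ k, Continuous fun f : ℕ →ᵇ CQ ω A => f k := fun k => by fun_prop
  have hβc : ∀ g, Continuous (actCQ ω α hα g) := fun g =>
    AddMonoidHomClass.continuous_of_bound (actCQ ω α hα g) 1 fun x => by rw [one_mul, norm_equiv]
  have hγmem : ∀ g (y : Bs), seqAct (actCQ ω α hα g) (y : ℕ →ᵇ CQ ω A) ∈ Bs := fun g =>
    hBind (seqAct (actCQ ω α hα g) ⁻¹' (Bs : Set (ℕ →ᵇ CQ ω A)))
      ((StarSubalgebra.isClosed_topologicalClosure _).preimage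
        (AddMonoidHomClass.continuous_of_bound (seqAct (actCQ ω α hα g)) 1 fun f => by
          rw [one_mul]
          exact (BoundedContinuousFunction.norm_le (norm_nonneg f)).2 fun k => by
            rw [seqAct_apply, norm_equiv]; exact f.norm_coe_le_norm k))
      fun x => by
        have hx : seqAct (actCQ ω α hα g) (Θ x) = Θ (e g x) := by
          ext k
          exact (hΨe k g x).symm
        show seqAct (actCQ ω α hα g) (Θ x) ∈ Bs
        rw [hx]
        exact hmemB _
  let c : Copies Bs (CQ ω A) ℕ :=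
    ⟨fun k => (evalStar k).comp Bs.subtype, fun j k hjk x y => by
      show (x : ℕ →ᵇ CQ ω A) j * (y : ℕ →ᵇ CQ ω A) k = (y : ℕ →ᵇ CQ ω A) k * (x : ℕ →ᵇ CQ ω A) j
      refine hBind {z | (x : ℕ →ᵇ CQ ω A) j * z k = z k * (x : ℕ →ᵇ CQ ω A) j}
        (isClosed_eq (continuous_const.mul (hev k)) ((hev k).mul continuous_const)) (fun y' => ?_) y
      refine hBind {z | z j * Ψ k y' = Ψ k y' * z j}
        (isClosed_eq ((hev j).mul continuous_const) (continuous_const.mul (hev j))) (fun x' => ?_) x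
      exact hΨcomm j k hjk x' y'⟩
  refine ⟨Bs, inferInstance, fun g y => ⟨_, hγmem g y⟩, c, fun k g x => rfl, ?_, ?_⟩
  · have hlE : ∀ x ∈ T, l x ∈ E := fun x hx => StarAlgebra.subset_adjoin ℂ L (hTL x hx)
    have hp : ∀ i, p i ∈ T := fun i => Or.inl (Or.inl (Or.inl ⟨i, rfl⟩))
    have ha : ∀ i, a i ∈ T := fun i => Or.inl (Or.inl (Or.inr ⟨i, rfl⟩))
    have hb : ∀ i, b i ∈ T := fun i => Or.inl (Or.inr ⟨i, rfl⟩)
    have hq : ∀ i, q i ∈ T := fun i => Or.inr ⟨i, rfl⟩
    let P : Fin n → E := fun i => ⟨l (p i), hlE _ (hp i)⟩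
    let A' : Fin n → E := fun i => ⟨l (a i), hlE _ (ha i)⟩
    let B' : Fin n → E := fun i => ⟨l (b i), hlE _ (hb i)⟩
    let Q : Fin n → E := fun i => ⟨l (q i), hlE _ (hq i)⟩
    let Θ' : E →⋆ₐ[ℂ] Bs := StarAlgHom.codRestrict Θ Bs hmemB
    refine full_of_sum (p := fun i => Θ' (P i))
      (x := fun i => Θ' (A' i) * Θ' (B' i) - Θ' (B' i) * Θ' (A' i)) (q := fun i => Θ' (Q i))
      (fun i => ⟨Θ' (A' i), Θ' (B' i), rfl⟩) ?_
    simp only [← map_mul, ← map_sub, ← map_sum]
    refine Subtype.ext ?_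
    show Θ _ = 1
    ext k
    rw [joint_apply]
    show Ψ k _ = 1
    rw [← sub_eq_zero, ← map_one (Ψ k), ← map_sub, ← norm_eq_zero, hΨn]
    simp [π, P, A', B', Q, hl, hsum]
  · intro hfix k y g
    show actCQ ω α hα g ((y : ℕ →ᵇ CQ ω A) k) = (y : ℕ →ᵇ CQ ω A) k
    refine hBind {z | actCQ ω α hα g (z k) = z k}
      (isClosed_eq ((hβc g).comp (hev k)) (hev k)) (fun x => ?_) y
    have hπ : ∀ x : E, π (e g x) = π x := by
      have hle : E ≤ StarAlgHom.equalizer ((proj ω).comp (centralAct ω (α g))) (proj ω) := by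
        refine StarAlgebra.adjoin_le ?_
        rintro y hy
        obtain ⟨h, z, ⟨t, ht, rfl⟩, rfl⟩ := Set.mem_iUnion.1 hy
        show proj ω (centralAct ω (α g) (centralAct ω (α h) (l t))) =
          proj ω (centralAct ω (α h) (l t))
        rw [← actHom_proj, ← actHom_proj, hl]
        have ht' : ∀ g', actHom ω (α g') t = t := fun g' => by
          rcases ht with ((⟨i, rfl⟩ | ⟨i, rfl⟩) | ⟨i, rfl⟩) | ⟨i, rfl⟩
          · exact (hfix i g').1
          · exact (hfix i g').2.1
          · exact (hfix i g').2.2.1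
          · exact (hfix i g').2.2.2
        rw [ht', ht']
      exact fun x => hle x.2
    show actCQ ω α hα g (Ψ k x) = Ψ k x
    rw [← hΨe, ← sub_eq_zero, ← map_sub, ← norm_eq_zero, hΨn, map_sub, hπ, sub_self, norm_zero]

end Vale.Agent.P095.Amenable
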