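import Mathlib
import Vale.Agent.P095.Amenable.Folner

/-!
Averages over cosets of the kernel of an action, with square roots of the Folner weights.
-/

noncomputable section

open Filter Topology

namespace Vale.Agent.P095.Amenable

universe u v

variable {G : Type v} [Group G] {D : Type u} [CStarAlgebra D] (β : G → D ≃⋆ₐ[ℂ] D)

/-- The maps given by the elements of a finite set. -/
def imgMaps (P : Finset G) : Finset (D → D) := by
  classical exact P.image fun g => ⇑(β g)

/-- The number of elements of a finite set giving one map, normalised. -/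
def wgt (N : ℝ) (P : Finset G) (c : D → D) : ℝ := by
  classical exact ((P.filter fun g => ⇑(β g) = c).card : ℝ) / N

lemma mem_imgMaps {P : Finset G} {c : D → D} : c ∈ imgMaps β P ↔ ∃ g ∈ P, ⇑(β g) = c := by
  classical simp [imgMaps]

lemma wgt_nonneg {N : ℝ} (hN : 0 ≤ N) (P : Finset G) (c : D → D) : 0 ≤ wgt β N P c := by
  unfold wgt
  positivity

lemma wgt_eq_zero {N : ℝ} {P : Finset G} {c : D → D} (h : c ∉ imgMaps β P) :
    wgt β N P c = 0 := by
  classical
  rw [mem_imgMaps] at h
  push Not at h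
  rw [wgt, Finset.filter_false_of_mem fun g hg => h g hg]
  simp

lemma sum_wgt (N : ℝ) (P : Finset G) : ∑ c ∈ imgMaps β P, wgt β N P c = (P.card : ℝ) / N := by
  classical
  rw [Finset.card_eq_sum_card_fiberwise (s := P) (t := imgMaps β P) (f := fun g => ⇑(β g))
    fun g hg => (mem_imgMaps β).2 ⟨g, hg, rfl⟩, Nat.cast_sum, Finset.sum_div]
  exact Finset.sum_congr rfl fun c _ => by simp only [wgt]

/-- The weighted sum over cosets. -/
def cosetSum (N : ℝ) (P : Finset G) (s : D) : D :=
  ∑ c ∈ imgMaps β P, (Real.sqrt (wgt β N P c) : ℂ) • c s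

lemma cosetSum_extend {N : ℝ} {P : Finset G} {U : Finset (D → D)} (hU : imgMaps β P ⊆ U) (s : D) :
    cosetSum β N P s = ∑ c ∈ U, (Real.sqrt (wgt β N P c) : ℂ) • c s :=
  Finset.sum_subset hU fun c _ hc => by rw [wgt_eq_zero β hc]; simp

lemma cosetSum_translate [DecidableEq G] (hβ : ∀ g h x, β (g * h) x = β g (β h x)) (N : ℝ)
    (P : Finset G) (h : G) (s : D) :
    β h (cosetSum β N P s) = cosetSum β N (P.image (h * ·)) s := by
  classical
  have hcomp : ∀ g, ⇑(β (h * g)) = ⇑(β h) ∘ ⇑(β g) := fun g => funext fun x => hβ h g x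
  have himg : imgMaps β (P.image (h * ·)) = (imgMaps β P).image (fun c => ⇑(β h) ∘ c) := by
    simp only [imgMaps, Finset.image_image]
    exact Finset.image_congr fun g _ => hcomp g
  have hinj : Function.Injective fun c : D → D => ⇑(β h) ∘ c :=
    fun c c' e => funext fun x => EquivLike.injective (β h) (congrFun e x)
  rw [cosetSum, cosetSum, himg, Finset.sum_image fun c _ c' _ e => hinj e, map_sum]
  refine Finset.sum_congr rfl fun c _ => ?_
  rw [map_smul, Function.comp_apply]
  congr 3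
  simp only [wgt, Finset.filter_image, Finset.card_image_of_injective _ (mul_right_injective h),
    hcomp, hinj.eq_iff]

variable {β}

/-- Intertwiners whose translates are orthogonal unless the maps agree. -/
lemma star_cosetSum_mul {s t w : D} (hw : ∀ g, β g (star s * t) = w)
    (horth : ∀ g g', ⇑(β g) ≠ ⇑(β g') → star (β g s) * β g' t = 0) (P : Finset G)
    (a b : (D → D) → ℂ) :
    star (∑ c ∈ imgMaps β P, a c • c s) * (∑ c ∈ imgMaps β P, b c • c t)
      = ∑ c ∈ imgMaps β P, (star (a c) * b c) • w := by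
  rw [star_sum, Finset.sum_mul_sum]
  refine Finset.sum_congr rfl fun c hc => ?_
  obtain ⟨g, -, rfl⟩ := (mem_imgMaps β).1 hc
  rw [Finset.sum_eq_single (⇑(β g))]
  · rw [star_smul, smul_mul_smul_comm, ← map_star (β g), ← map_mul, hw g]
  · intro c' hc' hne
    obtain ⟨g', -, rfl⟩ := (mem_imgMaps β).1 hc'
    rw [star_smul, smul_mul_smul_comm, horth g g' hne.symm, smul_zero]
  · exact fun h => absurd hc h

lemma star_cosetSum_mul_cosetSum {s t w : D} (hw : ∀ g, β g (star s * t) = w)
    (horth : ∀ g g', ⇑(β g) ≠ ⇑(β g') → star (β g s) * β g' t = 0) {P : Finset G}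
    (hP : P.Nonempty) :
    star (cosetSum β P.card P s) * cosetSum β P.card P t = w := by
  rw [cosetSum, cosetSum, star_cosetSum_mul hw horth, ← Finset.sum_smul]
  have e : ∀ c : D → D, star (Real.sqrt (wgt β P.card P c) : ℂ) * Real.sqrt (wgt β P.card P c)
      = ((wgt β P.card P c : ℝ) : ℂ) := fun c => by
    rw [← starRingEnd_apply, Complex.conj_ofReal, ← Complex.ofReal_mul,
      Real.mul_self_sqrt (wgt_nonneg β (by positivity) P c)]
  rw [Finset.sum_congr rfl fun c _ => e c, ← Complex.ofReal_sum, sum_wgt,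
    div_self (Nat.cast_ne_zero.2 (Finset.card_ne_zero.2 hP)), Complex.ofReal_one, one_smul]

/-- Translates of the weighted sum are close to it. -/
lemma cosetSum_inv (hβ : ∀ g h x, β (g * h) x = β g (β h x)) {s e : D}
    (he : ∀ g, β g (star s * s) = e) (hen : ‖e‖ ≤ 1)
    (horth : ∀ g g', ⇑(β g) ≠ ⇑(β g') → star (β g s) * β g' s = 0) {P : Finset G}
    (hP : P.Nonempty) (h : G) {ε : ℝ}
    (hh : (Set.ncard (((h * ·) '' (P : Set G)) \ (P : Set G)) : ℝ) ≤ ε * P.card) :
    ‖β h (cosetSum β P.card P s) - cosetSum β P.card P s‖ ^ 2 ≤ 2 * ε := by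
  classical
  obtain ⟨h1, h2⟩ := card_sdiff_image P h hh
  set Q := P.image (h * ·) with hQ
  set N : ℝ := (P.card : ℝ) with hN
  have hN0 : 0 < N := Nat.cast_pos.2 (Finset.card_pos.2 hP)
  set R := P ∪ Q
  have hsub : ∀ {S : Finset G}, S ⊆ R → imgMaps β S ⊆ imgMaps β R := fun hS c hc => by
    obtain ⟨g, hg, rfl⟩ := (mem_imgMaps β).1 hc
    exact (mem_imgMaps β).2 ⟨g, hS hg, rfl⟩
  rw [cosetSum_translate β hβ, cosetSum_extend β (hsub (Finset.subset_union_right : Q ⊆ R)),
    cosetSum_extend β (hsub (Finset.subset_union_left : P ⊆ R)), ← Finset.sum_sub_distrib]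
  simp only [← sub_smul, ← Complex.ofReal_sub]
  rw [sq, ← CStarRing.norm_star_mul_self, star_cosetSum_mul he horth, ← Finset.sum_smul, norm_smul]
  refine (mul_le_of_le_one_right (norm_nonneg _) hen).trans ((norm_sum_le _ _).trans ?_)
  let f : Finset G → (D → D) → ℝ := fun S c => ((S.filter fun g => ⇑(β g) = c).card : ℝ)
  have key : ∀ c ∈ imgMaps β R,
      ‖star ((Real.sqrt (wgt β N Q c) - Real.sqrt (wgt β N P c) : ℝ) : ℂ)
          * ((Real.sqrt (wgt β N Q c) - Real.sqrt (wgt β N P c) : ℝ) : ℂ)‖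
        ≤ (f (Q \ P) c + f (P \ Q) c) / N := by
    intro c _
    rw [norm_mul, norm_star, Complex.norm_real, Real.norm_eq_abs, abs_mul_abs_self]
    have hw : ∀ S, wgt β N S c = f S c / N := fun S => rfl
    have hsplit : f Q c - f P c = f (Q \ P) c - f (P \ Q) c := by
      simp only [f, Finset.card_filter, Nat.cast_sum]
      exact (Finset.sum_sdiff_sub_sum_sdiff).symm
    have hab : ∀ a b : ℝ, 0 ≤ a → 0 ≤ b →
        (Real.sqrt a - Real.sqrt b) * (Real.sqrt a - Real.sqrt b) ≤ |a - b| := by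
      intro a b ha hb
      rcases le_total a b with hl | hl
      · rw [abs_of_nonpos (sub_nonpos.2 hl)]
        nlinarith [Real.sqrt_le_sqrt hl, Real.sqrt_nonneg a, Real.sq_sqrt ha, Real.sq_sqrt hb]
      · rw [abs_of_nonneg (sub_nonneg.2 hl)]
        nlinarith [Real.sqrt_le_sqrt hl, Real.sqrt_nonneg b, Real.sq_sqrt ha, Real.sq_sqrt hb]
    refine (hab _ _ (wgt_nonneg β hN0.le _ _) (wgt_nonneg β hN0.le _ _)).trans ?_
    rw [hw, hw, ← sub_div, abs_div, abs_of_pos hN0, hsplit]
    refine div_le_div_of_nonneg_right ((abs_sub _ _).trans_eq ?_) hN0.le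
    simp [f]
  refine (Finset.sum_le_sum key).trans ?_
  rw [← Finset.sum_div, Finset.sum_add_distrib, div_le_iff₀ hN0]
  have hcard : ∀ S : Finset G, S ⊆ R → ∑ c ∈ imgMaps β R, f S c = (S.card : ℝ) := fun S hS => by
    rw [Finset.card_eq_sum_card_fiberwise (s := S) (t := imgMaps β R) (f := fun g => ⇑(β g))
      fun g hg => (mem_imgMaps β).2 ⟨g, hS hg, rfl⟩, Nat.cast_sum]
  rw [hcard _ (Finset.sdiff_subset.trans Finset.subset_union_right),
    hcard _ (Finset.sdiff_subset.trans Finset.subset_union_left)]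
  linarith

end Vale.Agent.P095.Amenable
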