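import Vale.Agent.P095.Amenable.Defs
import Vale.Agent.P095.Amenable.Finish.Average
import Vale.Agent.P095.Finite.Diag
import Vale.Agent.P095.Link

/-!
Characters of the fixed point algebra kill invariant elements with orthogonal intertwiners.
-/

noncomputable section

open Filter Topology
open scoped BoundedContinuousFunction

namespace Vale.Agent.P095.Amenable

open Vale.Agent.P101 (CQ centralAlg)
open Vale.Agent.P095.Finite (fixedAlg actCQ)

universe u v

variable {G : Type v} [Group G] [Countable G] {A : Type u} [CStarAlgebra A]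
  [TopologicalSpace.SeparableSpace A] {ω : Ultrafilter ℕ} {α : G → A ≃⋆ₐ[ℂ] A}
  (hα : ∀ g h x, α (g * h) x = α g (α h x))

include hα in
/-- Almost invariant intertwiners from orthogonal translates. -/
lemma exists_almost (hG : Folner G) {e : CQ ω A} (hef : e ∈ fixedAlg (actCQ ω α hα))
    (hen : ‖e‖ ≤ 1) {s : Fin 2 → ℕ →ᵇ A} (hs : ∀ i, P101.IsCentral ω (s i))
    (hss : ∀ i, P101.proj ω (⟨s i, hs i⟩ : ↥(centralAlg ω A)) ∈ {x : CQ ω A | star x * x = e})
    (h01 : P101.IsNull ω (star (s 0) * s 1))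
    (horth : ∀ g, ¬ ActsTrivially ω (α g) → ∀ i j,
      Tendsto (fun n => ‖star (s i n) * α g (s j n)‖) (ω : Filter ℕ) (𝓝 0))
    (E : Finset G) {ε : ℝ} (hε : 0 < ε) :
    ∃ S : Fin 2 → CQ ω A, (∀ i, star (S i) * S i = e) ∧ star (S 0) * S 1 = 0 ∧
      ∀ h ∈ E, ∀ i, ‖actCQ ω α hα h (S i) - S i‖ ≤ ε := by
  set β := actCQ ω α hα with hβdef
  set σ : Fin 2 → CQ ω A := fun i => P101.proj ω (⟨s i, hs i⟩ : ↥(centralAlg ω A)) with hσ
  have hmul : ∀ g h x, β (g * h) x = β g (β h x) := Finite.actCQ_mul ω α hα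
  have h1 : ∀ x, β 1 x = x := fun x => EquivLike.injective (β 1) (by rw [← hmul, mul_one])
  have htriv : ∀ g, ActsTrivially ω (α g) → ∀ x : CQ ω A, β g x = x := by
    intro g hg x
    obtain ⟨a, rfl⟩ := P101.proj_surjective ω x
    rw [hβdef, Finite.actCQ_apply, Finite.actHom_proj, P101.proj_eq_iff]
    exact hg _ a.2
  have horth' : ∀ i j, ∀ g g', ⇑(β g) ≠ ⇑(β g') → star (β g (σ i)) * β g' (σ j) = 0 := by
    intro i j g g' hne
    have hn : ¬ ActsTrivially ω (α (g⁻¹ * g')) := fun hk => hne <| funext fun x => by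
      have := hmul g (g⁻¹ * g') x
      rw [mul_inv_cancel_left, htriv _ hk] at this
      exact this.symm
    have h0 : star (σ i) * β (g⁻¹ * g') (σ j) = 0 := by
      simp only [hβdef, hσ, Finite.actCQ_apply, Finite.actHom_proj, ← map_star, ← map_mul,
        ← map_zero (P101.proj ω (A := A)), P101.proj_eq_iff]
      simpa [P101.IsNull] using! horth _ hn i j
    have h2 : β g' (σ j) = β g (β (g⁻¹ * g') (σ j)) := by rw [← hmul, mul_inv_cancel_left]
    rw [h2, ← map_star (β g), ← map_mul, h0, map_zero]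
  have hdiag : ∀ i g, β g (star (σ i) * σ i) = e := fun i g => by
    rw [show star (σ i) * σ i = e from hss i]
    exact hef g
  have hcross : ∀ g, β g (star (σ 0) * σ 1) = 0 := fun g => by
    have h0 : star (σ 0) * σ 1 = 0 := by
      simp only [hσ, ← map_star, ← map_mul, ← map_zero (P101.proj ω (A := A)), P101.proj_eq_iff]
      simpa using! h01
    rw [h0, map_zero]
  obtain ⟨P, hP, hPE⟩ := hG E (ε ^ 2 / 2) (by positivity)
  refine ⟨fun i => cosetSum β P.card P (σ i),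
    fun i => star_cosetSum_mul_cosetSum (hdiag i) (horth' i i) hP,
    star_cosetSum_mul_cosetSum hcross (horth' 0 1) hP, fun h hh i => ?_⟩
  have := cosetSum_inv hmul (hdiag i) hen (horth' i i) hP h (hPE h hh)
  exact le_of_pow_le_pow_left₀ two_ne_zero hε.le (by linarith)

omit [Countable G] [TopologicalSpace.SeparableSpace A] in
/-- Representatives of norm at most two. -/
lemma exists_rep_two (x : CQ ω A) (hx : ‖x‖ ≤ 1) :
    ∃ a : ↥(centralAlg ω A), P101.proj ω a = x ∧ ∀ n, ‖(a : ℕ →ᵇ A) n‖ ≤ 2 := by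
  obtain ⟨a, ha, hn⟩ := P101.exists_rep ω x one_pos
  exact ⟨a, ha, fun n => ((a : ℕ →ᵇ A).norm_coe_le_norm n).trans
    ((show ‖(a : ℕ →ᵇ A)‖ ≤ ‖x‖ + 1 from hn).trans (by linarith))⟩

include hα in
/-- Exactly invariant intertwiners, by diagonalisation. -/
lemma exists_exact (hω : (ω : Filter ℕ) ≤ cofinite) (e : ↥(centralAlg ω A))
    (hen : ‖P101.proj ω e‖ ≤ 1)
    (h : ∀ (E : Finset G) (ε : ℝ), 0 < ε → ∃ S : Fin 2 → CQ ω A,
      (∀ i, star (S i) * S i = P101.proj ω e) ∧ star (S 0) * S 1 = 0 ∧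
      ∀ h ∈ E, ∀ i, ‖actCQ ω α hα h (S i) - S i‖ ≤ ε) :
    ∃ S : Fin 2 → CQ ω A, (∀ i, S i ∈ fixedAlg (actCQ ω α hα)) ∧
      (∀ i, star (S i) * S i = P101.proj ω e) ∧ star (S 0) * S 1 = 0 := by
  classical
  obtain ⟨enc, henc⟩ := Countable.exists_injective_nat G
  let E : ℕ → Finset G := fun j => (Finset.range j).preimage enc henc.injOn
  obtain ⟨d, hd⟩ := TopologicalSpace.exists_dense_seq A
  let δ : ℕ → ℝ := fun j => 1 / (j + 1)
  have hδ : ∀ j, 0 < δ j := fun j => Nat.one_div_pos_of_nat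
  choose S hS hS01 hSE using fun j => h (E j) (δ j / 2) (half_pos (hδ j))
  have hSn : ∀ j i, ‖S j i‖ ≤ 1 := fun j i => by
    rw [← sq_le_one_iff₀ (norm_nonneg _), sq, ← CStarRing.norm_star_mul_self, hS]
    exact hen
  choose a ha ha2 using fun j i => exists_rep_two (S j i) (hSn j i)
  let P : ℕ → ℕ → Prop := fun j n =>
    (∀ i, ‖star ((a j i : ℕ →ᵇ A) n) * (a j i : ℕ →ᵇ A) n - (e : ℕ →ᵇ A) n‖ ≤ δ j) ∧
    ‖star ((a j 0 : ℕ →ᵇ A) n) * (a j 1 : ℕ →ᵇ A) n‖ ≤ δ j ∧
    (∀ i, ∀ g ∈ E j, ‖α g ((a j i : ℕ →ᵇ A) n) - (a j i : ℕ →ᵇ A) n‖ ≤ δ j) ∧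
    ∀ i, ∀ k ∈ Finset.range j, ‖(a j i : ℕ →ᵇ A) n * d k - d k * (a j i : ℕ →ᵇ A) n‖ ≤ δ j
  have hev : ∀ (x : ↥(centralAlg ω A)) {η : ℝ}, ‖P101.proj ω x‖ < η →
      ∀ᶠ n in (ω : Filter ℕ), ‖(x : ℕ →ᵇ A) n‖ ≤ η := fun x η hx =>
    ((P101.tendsto_nrm _).eventually_lt_const (by rwa [P101.norm_proj] at hx)).mono fun n hn => hn.le
  have hP : ∀ j, ∀ᶠ n in (ω : Filter ℕ), P j n := fun j => by
    refine (Filter.eventually_all.2 fun i => ?_).and (Eventually.and ?_
      ((Filter.eventually_all.2 fun i => ?_).and (Filter.eventually_all.2 fun i => ?_)))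
    · exact hev (star (a j i) * a j i - e) (η := δ j)
        (by rw [map_sub, map_mul, map_star, ha, hS, sub_self, norm_zero]; exact hδ j)
    · exact hev (star (a j 0) * a j 1) (η := δ j)
        (by rw [map_mul, map_star, ha, ha, hS01, norm_zero]; exact hδ j)
    · refine (Finset.eventually_all _).2 fun g hg =>
        hev (Finite.centralAct ω (α g) (a j i) - a j i) (η := δ j) ?_
      rw [map_sub, ← Finite.actHom_proj, ha, ← Finite.actCQ_apply ω α hα]
      exact (hSE j g hg i).trans_lt (half_lt_self (hδ j))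
    · exact (Finset.eventually_all _).2 fun k _ => ((a j i).2 (d k)).eventually_le_const (hδ j)
  obtain ⟨φ, hφ⟩ := Finite.exists_diag hω P hP
  let W : Fin 2 → ℕ →ᵇ A := fun i => BoundedContinuousFunction.ofNormedAddCommGroupDiscrete
    (fun n => (a (φ n) i : ℕ →ᵇ A) n) 2 fun n => ha2 (φ n) i n
  have null : ∀ (F : ℕ → ℝ) (J₀ : ℕ), (∀ n, 0 ≤ F n) →
      (∀ n, J₀ ≤ φ n → P (φ n) n → F n ≤ δ (φ n)) → Tendsto F (ω : Filter ℕ) (𝓝 0) := by
    intro F J₀ h0 hF
    refine Metric.tendsto_nhds.2 fun ε hε => ?_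
    obtain ⟨J, hJ⟩ := exists_nat_one_div_lt hε
    filter_upwards [hφ (max J₀ J)] with n hn
    rw [Real.dist_eq, sub_zero, abs_of_nonneg (h0 n)]
    exact (hF n (le_of_max_le_left hn.1) hn.2).trans_lt (lt_of_le_of_lt
      (one_div_le_one_div_of_le (by positivity)
        (by exact_mod_cast Nat.add_le_add_right (le_of_max_le_right hn.1) 1)) hJ)
  have hcen : ∀ i, P101.IsCentral ω (W i) := fun i => by
    intro b
    refine Metric.tendsto_nhds.2 fun ε hε => ?_
    obtain ⟨m, hm⟩ := hd.exists_dist_lt b (show 0 < ε / 12 by positivity)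
    have ht : Tendsto (fun n => ‖W i n * d m - d m * W i n‖) (ω : Filter ℕ) (𝓝 0) :=
      null _ (m + 1) (fun n => norm_nonneg _) fun n hn hP => hP.2.2.2 i m (Finset.mem_range.2 (by omega))
    filter_upwards [Metric.tendsto_nhds.1 ht (ε / 2) (by positivity)] with n hn
    rw [Real.dist_eq, sub_zero, abs_of_nonneg (norm_nonneg _)] at hn ⊢
    rw [dist_eq_norm] at hm
    have hb : ‖W i n‖ ≤ 2 := ha2 (φ n) i n
    have e1 := (norm_mul_le (W i n) (b - d m)).trans (mul_le_mul hb hm.le (norm_nonneg _) two_pos.le)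
    have e2 := (norm_mul_le (b - d m) (W i n)).trans (mul_le_mul hm.le hb (norm_nonneg _) (by positivity))
    calc ‖W i n * b - b * W i n‖
        = ‖(W i n * d m - d m * W i n) + W i n * (b - d m) - (b - d m) * W i n‖ := by
          congr 1; noncomm_ring
      _ ≤ ‖W i n * d m - d m * W i n‖ + ‖W i n * (b - d m)‖ + ‖(b - d m) * W i n‖ :=
          (norm_sub_le _ _).trans (add_le_add (norm_add_le _ _) le_rfl)
      _ < ε := by linarith
  refine ⟨fun i => P101.proj ω (⟨W i, hcen i⟩ : ↥(centralAlg ω A)), fun i g => ?_, fun i => ?_, ?_⟩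
  · rw [Finite.actCQ_apply, Finite.actHom_proj, P101.proj_eq_iff]
    exact null _ (enc g + 1) (fun n => norm_nonneg _)
      fun n hn hP => hP.2.2.1 i g (by simp [E]; omega)
  · rw [← map_star, ← map_mul, P101.proj_eq_iff]
    exact null _ 0 (fun n => norm_nonneg _) fun n _ hP => hP.1 i
  · rw [← map_star, ← map_mul, ← map_zero (P101.proj ω (A := A)), P101.proj_eq_iff]
    exact null _ 0 (fun n => norm_nonneg _) fun n _ hP => by
      simpa using! hP.2.1

end Vale.Agent.P095.Amenable
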